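import Mathlib
import Vale.Agent.Lib.P334.Greedy

/-!
Greedy for k-median with all client-facility distances in `[a, b]`, `0 < a ≤ b`:
after `k` steps the cost is at most `1 + (b / a - 1) / e` times the best cost of at most `k` facilities.
-/

namespace Vale.Agent.Results.P334.A_greedy

open Vale.Agent.Lib.P334

/-- Greedy runs exist, and each of them satisfies the ratio bound at every `k ≥ 1`. -/
theorem result {J F : Type*} [Fintype J] [Fintype F] [DecidableEq F] [Nonempty F]
    (d : J → F → ℝ) {a b : ℝ} (ha : 0 < a) (hab : a ≤ b)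
    (hd : ∀ j i, a ≤ d j i ∧ d j i ≤ b) :
    (∃ seq : ℕ → Finset F, IsGreedy d seq) ∧
      ∀ seq : ℕ → Finset F, IsGreedy d seq → ∀ k : ℕ, 1 ≤ k →
        ∃ hS : (seq k).Nonempty, (seq k).card ≤ k ∧
          ∀ (T : Finset F) (hT : T.Nonempty), T.card ≤ k →
            kCost d (seq k) hS ≤ (1 + (b / a - 1) * Real.exp (-1)) * kCost d T hT := by
  refine ⟨⟨greedySeq d, greedySeq_isGreedy d⟩, ?_⟩
  intro seq hg k hk
  have hS := seq_nonempty hg hk
  exact ⟨hS, seq_card hg k, fun T hT hTk => greedy_bound d ha hab hd hg hk hS hT hTk⟩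

end Vale.Agent.Results.P334.A_greedy
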